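import Crest.Agent.X212.Kh11.Bas
import Crest.Agent.X212.Hp13.TraD
import Crest.Agent.X212.Cut21.Brg

/-!
# X212 / Dd39 (helper39): levels, the calculus of `DD`
-/

set_option autoImplicit false
set_option linter.unusedSectionVars false

open Finset Classical

noncomputable section

namespace Crest.Agent.X212.Dd39

open Hp13 hiding sub_cl cl_low cl_mono om_low dp_iff coc_iff exOn_pb exOn_add exOn_neg exOn_congr
open Hk
open Alg36 (Om Esc mix Clo)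
open Kh11 (WS CE)

variable {P : Type} [PartialOrder P] [Fintype P] {X Y H A K : Set P} {t u : St} {f : t.P → P}
  {g : u.P → t.P} {w ζ ζ' : P → P → ℤ}

theorem tw_refl : Tw P (lv0 P) id := Desc.refl

theorem tw_iff (h : Tw P t f) : Tw t.P u g ↔ Desc t u g := by
  obtain ⟨Q, B⟩ := t
  obtain rfl : B = Set.univ := Desc.A_eq h
  rfl

theorem tw_trans (h : Tw P t f) (h' : Tw t.P u g) : Tw P u (f ∘ g) :=
  Desc.trans h ((tw_iff h).1 h')

theorem tw_dir {t' : St} {f' : t'.P → P} (h : Tw P t f) (h' : Tw P t' f') :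
    ∃ (u : St) (g : u.P → t.P) (g' : u.P → t'.P), Tw t.P u g ∧ Tw t'.P u g' ∧ f ∘ g = f' ∘ g' :=
  let ⟨u, g, g', a, b, c⟩ := Desc.common h h'
  ⟨u, g, g', (tw_iff h).2 a, (tw_iff h').2 b, c⟩

theorem tw_t3 : Tw P (lv0 P).sd.sd.sd t3 := ((Desc.sd (lv0 P)).step).step

theorem tw_ce (h : Tw P t f) : CE f := Desc.ce (s := lv0 P) h

theorem tw_mono (h : Tw P t f) : Monotone f := (tw_ce h).mono

theorem tw_ws (h : Tw P t f) (E : Set P) : WS (f ⁻¹' E) E f := (tw_ce h).ws_pre E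

theorem pre_cl (h : Tw P t f) (X : Set P) : cl (f ⁻¹' X) = f ⁻¹' cl X :=
  Set.ext fun _ => ⟨fun ⟨_, a, l⟩ => ⟨_, a, tw_mono h l⟩, fun ⟨_, a, l⟩ =>
    let ⟨p, h1, h2⟩ := Sup43.desc_up (s := lv0 P) h l; ⟨p, by rwa [Set.mem_preimage, h2], h1⟩⟩

theorem pre_om (h : Tw P t f) (X : Set P) : Om (f ⁻¹' X) = f ⁻¹' Om X :=
  Set.ext fun x => and_congr_right fun _ => Set.ext_iff.1 (pre_cl h X) x

theorem tw_ind (h : Tw P t f) {p : ∀ t : St, (t.P → P) → Prop} (h0 : p (lv0 P) id)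
    (h1 : ∀ t f, Tw P t f → p t f → p t.sd (f ∘ Ch.top)) : p t f :=
  Desc.rec (s := lv0 P) (motive := fun t f _ => p t f) h0 (fun d ih => h1 _ _ d ih) h

theorem rg_pre (h : Tw P t f) (k : Rg X) : Rg (f ⁻¹' X) :=
  tw_ind h (p := fun _ f => Rg (f ⁻¹' X)) k fun _ _ _ ih => rg_sd ih

theorem amb_pre (h : Tw P t f) (k : Amb X) : Amb (f ⁻¹' X) :=
  tw_ind h (p := fun _ f => Amb (f ⁻¹' X)) k fun _ _ _ ih => amb_sd ih

theorem mfIn_pre (h : Tw P t f) (hH : IsLowerSet H) (k : MfIn H A) : MfIn (f ⁻¹' H) (f ⁻¹' A) :=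
  tw_ind h (p := fun _ f => MfIn (f ⁻¹' H) (f ⁻¹' A)) k
    fun _ _ d ih => mfIn_sd (hH.preimage (tw_mono d)) ih

theorem s1_pre (h : Tw P t f) (k : S1 X w) : S1 (f ⁻¹' X) (pb f w) := by
  have m := tw_mono h
  refine ⟨?_, fun x y => ?_, fun x y => ?_⟩ <;> rw [pre_cl h]
  exacts [cocOn_pb k.coc m, fun a l => k.nn _ _ a (m l), fun a l => k.le1 _ _ a (m l)]

theorem td_pre (h : Tw P t f) (hX : IsUpperSet X) (k : TD X w) : TD (f ⁻¹' X) (pb f w) := by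
  have c := tw_ce h
  refine ⟨s1_pre h k.toS1, ?_, (Desc.chi (Desc.at h X) w).trans k.chi, ?_⟩
  · convert (c.ws (k.ca_up hX).ordConnected).conn_iff.2 k.conn using 1
    ext d
    simp only [CA, Set.mem_preimage, Set.mem_ofPred_eq, Ch.top_img, Ch.bot_img, pb]
  · obtain ⟨e, h1, h2⟩ := k.ne
    obtain ⟨d, rfl⟩ := c.lift e
    rw [pre_om h]
    exact ⟨d, fun x hx => h1 _ (Ch.mem_img.2 ⟨x, hx, rfl⟩), by
      simpa only [Ch.top_img, Ch.bot_img, pb] using h2⟩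

theorem ex_down {G : Type} [AddCommGroup G] {z : P → P → G} (h : Tw P t f) (hz : CocOn K z)
    (k : ExOn (f ⁻¹' K) (pb f z)) : ExOn K z := (tw_ws h K).ex hz k

theorem coc_down {G : Type} [AddCommGroup G] {z : t.P → t.P → G} (h : Tw P t f)
    (hz : CocOn (f ⁻¹' K) z) : ∃ z₀, CocOn K z₀ ∧ ExOn (f ⁻¹' K) (z - pb f z₀) := (tw_ws h K).onto hz

/-! ### `DD` -/

theorem dd_mk {ι : Type} [Fintype ι] (h : Tw P t f) (v : ι → t.P → t.P → ℤ) (n : ι → ℤ)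
    (h1 : ∀ i, TD (f ⁻¹' X) (v i)) (h2 : ExOn (f ⁻¹' cl X) (pb f ζ - ∑ i, n i • v i)) : DD X ζ :=
  ⟨t, f, h, _, v ∘ (Fintype.equivFin ι).symm, n ∘ (Fintype.equivFin ι).symm, fun _ => h1 _, by
    rwa [← (Fintype.equivFin ι).symm.sum_comp] at h2⟩

theorem dd_ex (h : ExOn (cl X) ζ) : DD X ζ :=
  dd_mk (ι := Empty) tw_refl (fun _ => 0) (fun _ => 0) (fun i => i.elim) (by simpa [pb_id] using h)

theorem dd_td (h : TD X w) : DD X w :=
  dd_mk (ι := Unit) tw_refl (fun _ => w) (fun _ => 1) (fun _ => h)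
    (by simpa [pb_id] using exOn_zero)

theorem dd_down (h : Tw P t f) (k : DD (f ⁻¹' X) (pb f ζ)) : DD X ζ := by
  obtain ⟨u, g, h1, n, v, m, h2, h3⟩ := k
  rw [pre_cl h] at h3
  exact ⟨u, f ∘ g, tw_trans h h1, n, v, m, h2, h3⟩

/-- the data of `DD` on a higher level -/
theorem dd_lift (hX : IsUpperSet X) (h : Tw P t f) (h' : Tw t.P u g) {ι : Type} [Fintype ι]
    {v : ι → t.P → t.P → ℤ} {n : ι → ℤ} (h1 : ∀ i, TD (f ⁻¹' X) (v i))
    (h2 : ExOn (f ⁻¹' cl X) (pb f ζ - ∑ i, n i • v i)) :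
    (∀ i, TD ((f ∘ g) ⁻¹' X) (pb g (v i))) ∧
      ExOn ((f ∘ g) ⁻¹' cl X) (pb (f ∘ g) ζ - ∑ i, n i • pb g (v i)) :=
  ⟨fun i => td_pre h' (hX.preimage (tw_mono h)) (h1 i), by
    have := exOn_pb h2 (tw_mono h')
    rwa [pb_sub, pb_sum] at this⟩

theorem dd_up (hX : IsUpperSet X) (h : Tw P t f) (k : DD X ζ) : DD (f ⁻¹' X) (pb f ζ) := by
  obtain ⟨t', f', h1, n, v, m, h2, h3⟩ := k
  obtain ⟨u, g, g', a, b, e⟩ := tw_dir h h1
  obtain ⟨h4, h5⟩ := dd_lift hX h1 b h2 h3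
  rw [← e] at h4 h5
  refine ⟨u, g, a, n, _, m, h4, ?_⟩
  rw [pre_cl h]
  exact h5

theorem dd_add (hX : IsUpperSet X) (k : DD X ζ) (k' : DD X ζ') : DD X (ζ + ζ') := by
  obtain ⟨t, f, h, n, v, m, h2, h3⟩ := k
  obtain ⟨t', f', h', n', v', m', h2', h3'⟩ := k'
  obtain ⟨u, g, g', a, b, e⟩ := tw_dir h h'
  obtain ⟨h4, h5⟩ := dd_lift hX h a h2 h3
  obtain ⟨h6, h7⟩ := dd_lift hX h' b h2' h3'
  rw [← e] at h6 h7
  refine dd_mk (ι := Fin n ⊕ Fin n') (tw_trans h a)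
    (Sum.elim (fun i => pb g (v i)) fun i => pb g' (v' i)) (Sum.elim m m')
    (fun i => i.rec h4 h6) ?_
  convert exOn_add h5 h7 using 1
  rw [Fintype.sum_sum_type, pb_add]
  simp only [Sum.elim_inl, Sum.elim_inr]
  abel

theorem dd_zsmul (k : DD X ζ) (a : ℤ) : DD X (a • ζ) := by
  obtain ⟨t, f, h, n, v, m, h2, h3⟩ := k
  refine ⟨t, f, h, n, v, fun i => a * m i, h2, ?_⟩
  convert exOn_zsmul h3 a using 1
  simp only [smul_sub, smul_sum, mul_smul, pb_zsmul]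

theorem dd_neg (k : DD X ζ) : DD X (-ζ) := by simpa using dd_zsmul k (-1)

theorem dd_congr (hX : IsUpperSet X) (k : DD X ζ) (e : ExOn (cl X) (ζ' - ζ)) : DD X ζ' := by
  simpa using dd_add hX k (dd_ex e)

theorem dd_sum (hX : IsUpperSet X) {ι : Type} (s : Finset ι) {v : ι → P → P → ℤ}
    (h : ∀ i ∈ s, DD X (v i)) : DD X (∑ i ∈ s, v i) :=
  sum_induction v (DD X) (fun _ _ => dd_add hX) (dd_ex exOn_zero) h

theorem add_pre (hX : IsUpperSet X) (h : Tw P t f) (k : ADD X) : ADD (f ⁻¹' X) := fun z hz => by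
  rw [pre_cl h] at hz
  obtain ⟨z₀, h1, h2⟩ := coc_down h hz
  exact dd_congr (hX.preimage (tw_mono h)) (dd_up hX h (k z₀ h1)) (pre_cl h X ▸ h2)

/-- it is enough to treat discs -/
theorem dd_of_td {X' : Set P} (hX : IsUpperSet X') (hs : X' ⊆ X)
    (h : ∀ t f, Tw P t f → ∀ v, TD (f ⁻¹' X) v → DD (f ⁻¹' X') v) (k : DD X ζ) : DD X' ζ := by
  obtain ⟨t, f, h1, n, v, m, h2, h3⟩ := k
  have u := hX.preimage (tw_mono h1)
  refine dd_down h1 (dd_congr u (dd_sum u univ fun i _ => dd_zsmul (h t f h1 _ (h2 i)) (m i)) ?_)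
  rw [pre_cl h1]
  exact exOn_mono h3 (Set.preimage_mono (cl_mono hs))

/-! ### two disjoint surfaces -/

theorem cm_low {B : Set P} (hA : IsLowerSet A) (hB : IsLowerSet B) (d : Disjoint A B) {x y : P}
    (hx : x ∈ A) (hy : y ∈ A ∪ B) (c : Cm x y) : y ∈ A :=
  c.elim (fun l => hy.resolve_right fun k => Set.disjoint_left.1 d hx (hB l k)) fun l => hA l hx

theorem mf_union {B U : Set P} {d : ℕ} (a : Mf d A) (b : Mf d B) (h : U ⊆ A ∪ B) : Mf d U :=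
  have m : ∀ c : Ch P, Mt U c → Mt A c ∨ Mt B c :=
    fun _ ⟨x, h1, h2⟩ => (h h2).imp (fun j => ⟨x, h1, j⟩) fun j => ⟨x, h1, j⟩
  ⟨fun c j => (m c j).elim (a.card_le c) (b.card_le c), fun c j => (m c j).elim (a.eul c)
    (b.eul c), fun c j => (m c j).elim (a.conn c) (b.conn c),
    fun c j => (m c j).elim (a.pure c) (b.pure c)⟩

theorem mfIn_union {B : Set P} (hA : IsLowerSet A) (hB : IsLowerSet B) (d : Disjoint A B)
    (h1 : MfIn A X) (h2 : MfIn B X) : MfIn (A ∪ B) X := by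
  have k : ∀ {A B U : Set P}, IsLowerSet A → IsLowerSet B → Disjoint A B → U = A ∪ B → MfIn A X →
      MfIn U (X ∩ A) := fun {A B U} hA hB d e h =>
    Cut21.mf_img (f := fun a : A => (⟨a.1, e ▸ Or.inl a.2⟩ : U)) (fun _ _ => Iff.rfl)
      (fun a j => ⟨⟨a.1, j.2⟩, j.1, rfl⟩)
      (fun _ j x c => ⟨⟨x.1, cm_low hA hB d j.2 (e ▸ x.2) c⟩, rfl⟩) h
  have a := k hA hB d rfl h1
  have b := k hB hA d.symm (Set.union_comm A B) h2
  have e : ∀ x ∈ A ∪ B, x ∈ A ∨ x ∈ B := fun _ j => j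
  generalize A ∪ B = U at a b e
  exact mf_union a b fun x j => (e _ x.2).imp (fun i => ⟨j, i⟩) fun i => ⟨j, i⟩

theorem noCap_left {B : Set P} (hA : IsLowerSet A) (hB : IsLowerSet B) (d : Disjoint A B)
    (h : NoCap (A ∪ B) X w) : NoCap A X w := fun Z =>
  ⟨fun k => (h Z).1 ⟨fun _ j => ⟨Or.inl (k.sub j).1, (k.sub j).2⟩, k.ctr, k.flat,
      fun x a y b l => k.up x a y (cm_low hA hB d (k.sub a).1 b (Or.inl l)) l, k.one, k.ne⟩,
    fun k => (h Z).2 ⟨fun _ j => ⟨Or.inl (k.sub j).1, (k.sub j).2⟩, k.ctr, k.flat, k.low,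
      fun x a y b l => k.one x a y (cm_low hA hB d (k.sub a).1 b (Or.inl l)) l,
      let ⟨x, a, y, b, c⟩ := k.ne; ⟨x, a, y, Or.inl b, c⟩⟩⟩

theorem ctr_cmp {B D : Set P} (hA : IsLowerSet A) (hB : IsLowerSet B) (d : Disjoint A B)
    (h1 : Ctr A) (h2 : Ctr B) (h : IsCmp (A ∪ B) D) : Ctr D := by
  obtain ⟨x, hx⟩ := h.ne
  have a : IsCmp (A ∪ B) A := Sf30.isCmp_of Set.subset_union_left h1.ne h1.conn
    fun _ a _ b => cm_low hA hB d a b
  have b : IsCmp (A ∪ B) B := Sf30.isCmp_of Set.subset_union_right h2.ne h2.conn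
    fun _ a _ b => cm_low hB hA d.symm a b.symm
  rcases h.sub hx with k | k
  · rwa [(h.eq hx).trans (a.eq k).symm]
  · rwa [(h.eq hx).trans (b.eq k).symm]

end Crest.Agent.X212.Dd39
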