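import Crest.Agent.X212.Dd39.Lv
import Crest.Agent.X212.Trs39.Main

/-!
# X212 / Dd39 (helper39): KH-DD
-/

set_option autoImplicit false
set_option linter.unusedSectionVars false

open Finset Classical

noncomputable section

namespace Crest.Agent.X212.Dd39

open Hp13 hiding sub_cl cl_low cl_mono om_low dp_iff coc_iff exOn_pb exOn_add exOn_neg exOn_congr
open Hk
open Alg36 (Om Esc mix Clo)
open Kh11 (WS CE)
open Sf30 (cs mem_cs cmp_upper)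
open Cut21 (tp le_tp mem_tp)

variable {P : Type} [PartialOrder P] [Fintype P] {X X' Y H H' Λ C : Set P} {t : St} {f : t.P → P}
  {w u ζ : P → P → ℤ}

/-- the hypotheses of EXT -/
structure Ac (X X' Λ : Set P) : Prop where
  up : IsUpperSet X
  up' : IsUpperSet X'
  sub : X' ⊆ X
  low : IsLowerSet Λ
  om : Om X' ∩ X ⊆ Λ
  fr : ∀ y ∈ cl X', ∀ v ∈ cl X, y ≤ v → v ∉ cl X' → y ∈ Λ

theorem Ac.pre (h : Ac X X' Λ) (k : Tw P t f) : Ac (f ⁻¹' X) (f ⁻¹' X') (f ⁻¹' Λ) := by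
  have m := tw_mono k
  refine ⟨h.up.preimage m, h.up'.preimage m, Set.preimage_mono h.sub, h.low.preimage m, ?_, ?_⟩
  · rw [pre_om k]; exact fun _ j => h.om j
  · rw [pre_cl k, pre_cl k]; exact fun _ a _ b l => h.fr _ a _ b (m l)

theorem Ac.td (h : Ac X X' Λ) (hE : ExtStmt) (k : Flat (Λ ∩ cl X') w) (d : TD X' w) :
    TD X (ext X' w) := ((hE P X X' Λ h.up h.up' h.sub h.low h.om h.fr).2 w k).2.2.1 d

theorem ext_eq : EqE (cl X') (ext X' w) w := fun _ _ _ k _ => if_pos k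

/-! ### components -/

theorem cmp_cl (hX : Rg X) (hC : IsCmp X C) {y v : P} (hy : y ∈ cl C) (hv : v ∈ X) (l : y ≤ v) :
    v ∈ C := by
  obtain ⟨c, h1, h2⟩ := hy
  rw [hC.eq h1]
  exact ⟨hv, ((hX.ctr ⟨c, hC.sub h1, h2⟩).conn c ⟨hC.sub h1, h2⟩ v ⟨hv, l⟩).mono fun _ k => k.1⟩

theorem ac_cmp (hX : Rg X) (hC : IsCmp X C) : Ac X C ∅ :=
  ⟨hX.up, cmp_upper hX.up hC, hC.sub, isLowerSet_empty,
    fun _ k => k.1.1 (cmp_cl hX hC k.1.2 k.2 le_rfl),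
    fun _ a _ ⟨x, b, c⟩ l n => n ⟨x, cmp_cl hX hC a b (l.trans c), c⟩⟩

theorem dd_ext (hE : ExtStmt) (h : Ac X C ∅) (k : DD C ζ) : DD X (ext C ζ) := by
  obtain ⟨t, f, h1, n, v, m, h2, g, h3⟩ := k
  have a := h.pre h1
  refine dd_mk h1 (fun i => ext (f ⁻¹' C) (v i)) m
    (fun i => a.td hE (fun _ j => j.1.elim) (h2 i))
    ⟨fun x => if f x ∈ cl C then g x else 0, fun x hx y hy l => ?_⟩
  by_cases j : f y ∈ cl C
  · have j' := cl_low (tw_mono h1 l) j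
    simp only [if_pos j, if_pos j', ← h3 x j' y j l]
    simp [pb, Hk.ext, pre_cl h1, j, Finset.sum_apply]
  · have j' : f x ∉ cl C := fun i => h.fr _ i _ hy (tw_mono h1 l) j
    simp [pb, Hk.ext, pre_cl h1, j, j', Finset.sum_apply]

theorem dd_cmp (hE : ExtStmt) (hX : Rg X) (h : ∀ C, IsCmp X C → DD C ζ) : DD X ζ := by
  refine dd_congr hX.up (dd_sum hX.up (cs X) fun C k =>
    dd_ext hE (ac_cmp hX (mem_cs.1 k)) (h C (mem_cs.1 k))) (Flat.exOn ?_)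
  rintro x - y ⟨a, ha, l⟩ -
  have m := mem_cmp_self ha
  simp only [Pi.sub_apply, Finset.sum_apply, Hk.ext]
  rw [sum_eq_single_of_mem _ (mem_cs.2 (isCmp_cmp ha)) fun C k n => if_neg fun j =>
    n ((mem_cs.1 k).eq (cmp_cl hX (mem_cs.1 k) j ha l)), if_pos ⟨a, m, l⟩, sub_self]

/-! ### a disc is the sum of its pieces -/

/-- a scar -/
structure Sc (X X' H : Set P) : Prop where
  low : IsLowerSet H
  ctr : Ctr H
  sub : H ⊆ Om X'
  mf : MfIn H X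
  ctr' : Ctr (H ∩ X)
  ne : ∃ x ∈ H, ∃ y ∈ H ∩ X, x ∉ X ∧ x ≤ y

theorem Sc.pre (h : Sc X X' H) (k : Tw P t f) : Sc (f ⁻¹' X) (f ⁻¹' X') (f ⁻¹' H) := by
  refine ⟨h.low.preimage (tw_mono k), (tw_ws k H).ctr_iff.2 h.ctr, ?_, mfIn_pre k h.low h.mf,
    (tw_ws k (H ∩ X)).ctr_iff.2 h.ctr', ?_⟩
  · rw [pre_om k]; exact Set.preimage_mono h.sub
  · obtain ⟨x, h1, y, h2, h3, h4⟩ := h.ne
    obtain ⟨x, rfl⟩ := (tw_ce k).surj x
    obtain ⟨y, h5, rfl⟩ := Sup43.desc_up (s := lv0 P) k h4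
    exact ⟨x, h1, y, h2, h3, h5⟩

theorem sum_pc (hX : Rg X) (h : S1 X u) : EqE (cl X) u (∑ D ∈ cs (CA X u), pc u D) := by
  rintro x - y ⟨a, ha, l⟩ k
  simp only [Finset.sum_apply, pc]
  rcases h.cases ⟨a, ha, l⟩ k with j | j
  · exact j.trans (sum_eq_zero fun D _ => if_neg fun i => by omega).symm
  have q : 0 < u (Ch.pr x y k).bot (Ch.pr x y k).top := by simp [j]
  have c : tp (Ch.pr x y k) a (by simpa using l) ∈ CA X u :=
    ⟨by simpa using ha, h.up (by simpa using sub_cl ha) (le_tp _ _ _) q⟩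
  refine (j.trans ?_).trans (sum_eq_single_of_mem _ (mem_cs.2 (isCmp_cmp c)) fun D i n =>
    if_neg fun ⟨_, d, d1, d2, d3⟩ => n ((mem_cs.1 i).eq ((h.z1 hX.up).cmp_over hX.up hX.nice
      (mem_cs.1 i) q d1 (Cut21.pr_le d2 d3) (le_tp _ _ _) c.1))).symm
  exact (if_pos ⟨by omega, _, mem_cmp_self c, by simp, by simp⟩).symm

theorem dd_piece (hP : PcStmt) (hC : CircStmt) (hX : Rg X) (hX' : Rg X') (hs : X' ⊆ X)
    (h0 : Sc X X' H) (h1 : Sc X X' H') (ho : Om X' ∩ X ⊆ H ∪ H') (n0 : NoCap H X u)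
    (n1 : NoCap H' X u) (hu : TD X u) : DD X' u := by
  have s := hu.toS1.mono hs
  have z := hu.toS1.z1 hX.up
  refine dd_congr hX'.up (dd_sum hX'.up (cs (CA X' u)) fun D k => dd_td ?_)
    (Flat.exOn fun x a y b l => sub_eq_zero.2 (sum_pc hX' s x a y b l))
  have hD := mem_cs.1 k
  have sub : D ⊆ CA X u := fun c j => ⟨hs (hD.sub j).1, (hD.sub j).2⟩
  obtain ⟨q, hq⟩ := hu.ne
  obtain ⟨q1, q2⟩ := (Cut21.cv_om hX.up).1 hq
  obtain ⟨c, c1, c2⟩ := Cut21.ex_ca hX.up z q1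
  have up : ∀ a ∈ D, ∀ b ∈ CA X u, a ≤ b → b ∈ D := fun a i b j l =>
    hD.clopen i ⟨hX'.up (Ch.top_mono l) (hD.sub i).1, j.2⟩ (Or.inl l)
  refine (hP P X' X' u D hX' hX'.up s (by rwa [Set.inter_self]) fun _ _ _ _ _ _ j _ => j).2.2
    (Trs39.reg_one z hX.mf (Δ := CA X u) subset_rfl hu.conn (Cut21.chi_ca hX hu.toS1 ▸ hu.chi)
      c1 q1 q2 (Or.inr c2) sub hD.ne hD.conn fun Z hZ a ha a' ha' j i => ?_) (by_contra fun n => ?_)
  · obtain ⟨a1, a2⟩ := hZ.sub ha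
    have l : a ≤ a' := j.resolve_right fun l => a2 (up _ ha' _ a1 l)
    have key : ∀ {H}, Sc X X' H → NoCap H X u → a.top ∉ H := fun {H} h n m =>
      hC P X H u (Cv (H ∩ cl X) u ∩ Z) hX.up h.low h.mf h.ctr' h.ne hu.toS1
        ⟨a, (mem_cv (h.low.inter cl_low)).2 ⟨⟨m, sub_cl a1.1⟩, a1.2⟩, ha⟩
        ⟨Set.inter_subset_left, fun e he e' he' c => ⟨he', hZ.clopen he.2
          ⟨i e he.2 e' ⟨(dom_iff' hX.up).2 (he'.1 _ e'.top_mem).2, he'.2⟩ c,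
            fun d => (h.sub (he'.1 _ e'.top_mem).1).1 (hD.sub d).1⟩ c⟩⟩
        (fun _ c => (hZ.sub c.2).1.1) n
    exact (ho ⟨⟨fun m => a2 (hD.clopen ha' ⟨m, a1.2⟩ j.symm), _, (hD.sub ha').1, Ch.top_mono l⟩,
      a1.1⟩).elim (key h0 n0) (key h1 n1)
  · obtain ⟨d, hd⟩ := hD.ne
    refine n ⟨c, (hu.conn d (sub hd) c c1).ind hd fun a i b j l => ⟨fun m => up a m b j l,
      fun m => hD.clopen m ⟨by_contra fun o => n ⟨b, m, a, l, i.2, o⟩, i.2⟩ (Or.inr l)⟩,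
      q, c2, q1.2, fun m => q2 ⟨hs m, q1.2⟩⟩

/-! ### the cut -/

theorem scar_disj : Disjoint (scar X w 0) (scar X w 1) :=
  Set.disjoint_left.2 fun _ a b => zero_ne_one (a.2.symm.trans b.2)

theorem mv_fr {N : Set P} {y v : Ch (Ch P)} (hy : y ∈ cl (mvX X N)) (hv : t2 v ∈ cl X) (l : y ≤ v)
    (n : v ∉ cl (mvX X N)) : y ∈ mvD X N := by
  obtain ⟨c, h1, h2⟩ := hy
  refine ⟨⟨cl_low (t2_mono l) hv, by_contra fun k => n ?_⟩, _, Ch.bot_anti h2 c.bot.bot_mem,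
    h1.2 _ c.bot.bot_mem⟩
  obtain ⟨a, ha, m⟩ := hv
  exact ⟨tp v (tp v.top a m) (le_tp _ _ _), ⟨by simpa using ha,
    fun x j i => k ⟨x, Ch.bot_anti l (by simpa using j), i⟩⟩, le_tp _ _ _⟩

theorem ex_om (h : Amb X) (hz : CocOn (cl X) u) (k : ExOn (Om X) u) : ExOn (cl X) u := by
  obtain ⟨g, k⟩ := k
  simpa using exOn_add (ex_of_flat h.up h.up subset_rfl h.bnd (cocOn_sub hz (cocOn_cb g))
    fun x a y b l => sub_eq_zero.2 (k x a y b l)) (exOn_cb g)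

/-- a disc of the cut manifold is cohomologous to a class dual to discs of the manifold -/
theorem td_glue (hE : ExtStmt) (hS : SlStmt) (hX' : Amb X') (ac : Ac X X' (H ∪ H'))
    (s0 : Sc X X' H) (s1 : Sc X X' H') (d : Disjoint H H') (h : Tw P t f) {v : t.P → t.P → ℤ}
    (hv : TD (f ⁻¹' X') v) :
    ∃ v₀, CocOn (cl X) v₀ ∧ DD X v₀ ∧ ExOn (f ⁻¹' cl X') (pb f v₀ - v) := by
  have am := amb_pre h hX'
  have a0 := s0.pre h
  have a1 := s1.pre h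
  rw [← pre_cl h]
  rcases hS t.P _ _ _ (f ⁻¹' H ∪ f ⁻¹' H') v am.sub (bd_om am.up) (a0.low.union a1.low)
    (Set.union_subset a0.sub a1.sub) (fun _ => ctr_cmp a0.low a1.low (d.preimage f) a0.ctr a1.ctr)
    hv on_om with k | ⟨t', g, v', tr, fl⟩
  · exact ⟨0, cocOn_zero, dd_ex exOn_zero, by
      simpa [show pb f (0 : P → P → ℤ) = 0 from rfl] using exOn_neg (ex_om am hv.coc k.exOn)⟩
  have tw := tw_trans h tr.tw
  have td := (ac.pre tw).td hE (fl.mono Set.inter_subset_left) tr.td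
  have cc := td.coc
  rw [pre_cl tw] at cc
  obtain ⟨v₀, c0, e0⟩ := coc_down tw cc
  have dd : DD X v₀ := dd_down tw (dd_congr (ac.up.preimage (tw_mono tw)) (dd_td td)
    (by rw [pre_cl tw]; simpa using exOn_neg e0))
  have e1 : ExOn (g ⁻¹' cl (f ⁻¹' X')) (v' - pb g (pb f v₀)) := by
    rw [← pre_cl tr.tw]
    refine exOn_congr (exOn_mono e0 ?_) fun x a y b l => ?_
    · rw [← pre_cl tw]; exact cl_mono (Set.preimage_mono (f := f ∘ g) ac.sub)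
    · exact congrArg (· - _) (ext_eq x a y b l).symm
  have c1 : CocOn (cl (f ⁻¹' X')) (pb f v₀) := by
    rw [pre_cl h]; exact cocOn_pb (cocOn_mono c0 (cl_mono ac.sub)) (tw_mono h)
  rcases tr.drv with k | k
  · refine ⟨v₀, c0, dd, ex_down tr.tw (cocOn_sub c1 hv.coc) ?_⟩
    convert exOn_sub k e1 using 1
    rw [pb_sub]; abel
  · refine ⟨-v₀, cocOn_neg c0, dd_neg dd, ex_down tr.tw (cocOn_sub (cocOn_neg c1) hv.coc) ?_⟩
    convert exOn_sub e1 k using 1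
    rw [pb_sub, pb_neg, pb_neg]; abel

theorem dd_glue (hE : ExtStmt) (hS : SlStmt) (hX' : Amb X') (ac : Ac X X' (H ∪ H'))
    (s0 : Sc X X' H) (s1 : Sc X X' H') (d : Disjoint H H')
    (base : ∀ ζ, CocOn (cl X) ζ → ExOn (cl X') ζ → DD X ζ) (hz : CocOn (cl X) ζ) (k : DD X' ζ) :
    DD X ζ := by
  obtain ⟨t, f, h, n, v, m, h2, h3⟩ := k
  choose v₀ c0 d0 e0 using fun i => td_glue hE hS hX' ac s0 s1 d h (h2 i)
  have c1 := cocOn_sub hz (cocOn_sum univ fun i _ => cocOn_zsmul (c0 i) (m i))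
  have := dd_add ac.up (base _ c1 (ex_down h (cocOn_mono c1 (cl_mono ac.sub)) ?_))
    (dd_sum ac.up univ fun i _ => dd_zsmul (d0 i) (m i))
  · rwa [sub_add_cancel] at this
  · convert exOn_sub h3 (exOn_sum univ fun i _ => exOn_zsmul (e0 i) (m i)) using 1
    simp only [pb_sub, pb_sum, pb_zsmul, smul_sub, sum_sub_distrib]
    abel

theorem dd_res (hT : TraDStmt) (hC : CircStmt) (hP : PcStmt) (hX : Amb X) (hX' : Rg X')
    (ac : Ac X X' (H ∪ H')) (s0 : Sc X X' H) (s1 : Sc X X' H') (d : Disjoint H H') (k : DD X ζ) :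
    DD X' ζ := by
  refine dd_of_td hX'.up ac.sub (fun t f h v hv => ?_) k
  have am := amb_pre h hX
  obtain ⟨t', g, v', tr, nc⟩ := hT t.P _ _ _ _ v am.sub am.up subset_rfl
    (ac.low.preimage (tw_mono h)) (mfIn_pre h ac.low (mfIn_union s0.low s1.low d s0.mf s1.mf)) hv
  have tw := tw_trans h tr.tw
  have a0 := s0.pre tw
  have a1 := s1.pre tw
  have d' := d.preimage (f ∘ g)
  have r := rg_pre tw hX'
  have dd := dd_piece hP hC (rg_pre tw hX.toRg) r (ac.pre tw).sub a0 a1 (ac.pre tw).om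
    (noCap_left a0.low a1.low d' nc) (noCap_left a1.low a0.low d'.symm (Set.union_comm _ _ ▸ nc))
    tr.td
  have sb : cl ((f ∘ g) ⁻¹' X') ⊆ g ⁻¹' cl (f ⁻¹' X) := by
    rw [← pre_cl tr.tw]; exact cl_mono (ac.pre tw).sub
  refine dd_down tr.tw (show DD ((f ∘ g) ⁻¹' X') _ from ?_)
  rcases tr.drv with k | k
  · exact dd_congr r.up dd (by simpa using exOn_neg (exOn_mono k sb))
  · exact dd_congr r.up (dd_neg dd) (by simpa [add_comm] using exOn_mono k sb)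

/-- KH-DD -/
theorem ddStmt (hE : ExtStmt) (hS : SlStmt) (h1 : Tc1Stmt) (h2 : Tc2Stmt) (hT : TraDStmt)
    (hC : CircStmt) (hP : PcStmt) : DdStmt := by
  intro P _ _ Y X hY hX
  refine ⟨fun ζ _ h => dd_cmp hE hX.toRg h, fun w hw => ?_⟩
  obtain ⟨-, r, am, -, -, -, eD, eO, -, sc⟩ := h1 P X w hX.toRg hw
  obtain ⟨tr, -, -, t1, t2'⟩ := h2 P X w hX.toRg hw
  have a3 : Amb (t3 ⁻¹' X) := amb_pre tw_t3 hX
  have c3 : cl (t3 ⁻¹' X) = t3 ⁻¹' cl X := pre_cl tw_t3 X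
  have sc' : ∀ b, b = 0 ∨ b = 1 → Sc (t3 ⁻¹' X) (tcut X w) (scar X w b) := fun b hb =>
    let ⟨a, b, c, d, e, _, g⟩ := sc b hb; ⟨a, b, c, d, e, g⟩
  have s0 := sc' 0 (Or.inl rfl)
  have s1 := sc' 1 (Or.inr rfl)
  have ac : Ac (t3 ⁻¹' X) (tcut X w) (scar X w 0 ∪ scar X w 1) :=
    ⟨a3.up, r.up, mvX_sub, s0.low.union s1.low, fun _ k => (eO k.1).resolve_left fun j => j.1 k.2,
      fun _ a _ b l n => eD ▸ mv_fr a (by rw [cl_sd]; rwa [c3] at b) l n⟩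
  rw [← c3] at t1 t2' ⊢
  refine ⟨fun ζ => dd_glue hE hS (am hX) ac s0 s1 scar_disj fun ζ a b => ?_, fun k ζ hz => ?_⟩
  · obtain ⟨n, e⟩ := t1 ζ a b
    exact dd_congr a3.up (dd_zsmul (dd_td tr.td) n) e
  · obtain ⟨ζ', a, b⟩ := t2' ℤ ζ hz
    exact dd_congr r.up (dd_res hT hC hP a3 r ac s0 s1 scar_disj (add_pre hX.up tw_t3 k ζ' a))
      (by simpa using exOn_neg b)

end Crest.Agent.X212.Dd39
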